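import Vale.Agent.P197.Main
import Vale.Agent.P197.Colour.LayoutExists
import Vale.Agent.P197.Final.Module

/-!
# Saxl's conjecture

For every `m ≥ 1` the tensor square of the Specht module of the staircase shape
`(m, m - 1, …, 1)` contains every irreducible complex representation of `S_n`,
`n = m (m + 1) / 2`.
-/

open Equiv Representation Vale.Agent.P197 Vale.Agent.P197.SymChar Vale.Agent.P197.Final

namespace Vale.Agent.Results.P197.SaxlConjecture

theorem result : ∀ m n : ℕ, 1 ≤ m → n = m * (m + 1) / 2 →
    (∃ T : Fin n → Fin n,
      ∀ i : Fin n, (Finset.univ.filter fun x => T x = i).card = m - (i : ℕ)) ∧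
    ∀ T : Fin n → Fin n,
      (∀ i : Fin n, (Finset.univ.filter fun x => T x = i).card = m - (i : ℕ)) →
      ∀ (W : Type) [AddCommGroup W] [Module ℂ W] [FiniteDimensional ℂ W]
        (σ : Representation ℂ (Perm (Fin n)) W) [σ.IsIrreducible],
        ∃ f : IntertwiningMap σ (tprod (spechtAction T) (spechtAction T)), Function.Injective f := by
  rintro m n _ rfl
  exact saxl_of_kronecker_pos m fun v =>
    kronecker_pos_of_layoutData (row_staircase m) rfl
      (fun _ hd hpar =>
        have h := Colour.exists_layoutData (row_staircase m) (le_tri m) hd hpar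
        ⟨h.1, (congrArg (· + _) (Nat.mul_comm 2 _)).trans h.2⟩) v

end Vale.Agent.Results.P197.SaxlConjecture
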